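import Mathlib
import Vale.Agent.Lib.P248.helper37.Q2Defs

open MeasureTheory Set

namespace Vale.Agent.Lib.P248.H40

open Vale.Agent.Lib.P248.H37 Vale.Agent.Lib.P248.H37Q

theorem jk_negCount_eq {m : ℕ} (y : Fin m → ℝ) :
    negCount y = ∑ i, if y i < 0 then 1 else 0 :=
  Finset.card_filter _ _

theorem jk_measurable_negCount {m : ℕ} : Measurable (fun y : Fin m → ℝ => negCount y) := by
  have h : (fun y : Fin m → ℝ => negCount y) =
      fun y => ∑ i, if y i < 0 then 1 else 0 := funext jk_negCount_eq
  rw [h]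
  refine Finset.measurable_sum _ fun i _ => ?_
  exact Measurable.ite (measurableSet_lt (measurable_pi_apply i) measurable_const)
    measurable_const measurable_const

theorem jk_isClosed_polZ {m : ℕ} (A : Set (Fin m → ℝ)) (z : Fin m → ℝ) :
    IsClosed (polZ A z) := by
  have h : polZ A z = ⋂ x ∈ A, {y : Fin m → ℝ | ∑ i, (x i - z i) * y i ≤ 1} := by
    ext y
    simp only [Set.mem_iInter]
    exact Iff.rfl
  rw [h]
  refine isClosed_biInter fun x _ => ?_
  refine isClosed_le ?_ continuous_const
  exact continuous_finsetSum _ fun i _ => continuous_const.mul (continuous_apply i)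

theorem measurableSet_polK {m : ℕ} (A : Set (Fin m → ℝ)) (z : Fin m → ℝ) (k : ℕ) :
    MeasurableSet (polK A z k) := by
  have h : polK A z k = polZ A z ∩ (fun y : Fin m → ℝ => negCount y) ⁻¹' {k} := by
    ext y
    exact Iff.rfl
  rw [h]
  exact (jk_isClosed_polZ A z).measurableSet.inter
    (jk_measurable_negCount (measurableSet_singleton k))

theorem polK_zero {m : ℕ} (A : Set (Fin m → ℝ)) (z : Fin m → ℝ) :
    polK A z 0 = posZ A z := by
  ext y
  have h0 : negCount y = 0 ↔ ∀ i, 0 ≤ y i := by
    rw [jk_negCount_eq, Finset.sum_eq_zero_iff]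
    constructor
    · intro h i
      by_contra hi
      have := h i (Finset.mem_univ i)
      rw [if_pos (not_le.mp hi)] at this
      exact one_ne_zero this
    · intro h i _
      exact if_neg (not_lt.mpr (h i))
  constructor
  · intro hy
    exact ⟨h0.mp hy.2, hy.1⟩
  · intro hy
    exact ⟨hy.2, h0.mpr hy.1⟩

theorem polK_count {m : ℕ} (A : Set (Fin m → ℝ)) (z : Fin m → ℝ) (k : ℕ) :
    (k : ENNReal) * volume (polK A z k) = ∑ i, volume (polK A z k ∩ {y | y i < 0}) := by
  have hP : MeasurableSet (polK A z k) := measurableSet_polK A z k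
  have hS : ∀ i : Fin m, MeasurableSet {y : Fin m → ℝ | y i < 0} := fun i =>
    measurableSet_lt (measurable_pi_apply i) measurable_const
  have h1 : ∀ i : Fin m, volume (polK A z k ∩ {y | y i < 0}) =
      ∫⁻ y in polK A z k, ({y : Fin m → ℝ | y i < 0}).indicator 1 y := by
    intro i
    rw [lintegral_indicator_one (hS i), Measure.restrict_apply (hS i), Set.inter_comm]
  have h2 : ∀ y ∈ polK A z k,
      ∑ i, ({y : Fin m → ℝ | y i < 0}).indicator (1 : (Fin m → ℝ) → ENNReal) y = (k : ENNReal) := by
    intro y hy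
    have hk : negCount y = k := hy.2
    rw [← hk, jk_negCount_eq, Nat.cast_sum]
    refine Finset.sum_congr rfl fun i _ => ?_
    by_cases hi : y i < 0
    · rw [if_pos hi, Set.indicator_of_mem (show y ∈ {y : Fin m → ℝ | y i < 0} from hi)]
      simp
    · rw [if_neg hi, Set.indicator_of_notMem (show y ∉ {y : Fin m → ℝ | y i < 0} from hi)]
      simp
  calc (k : ENNReal) * volume (polK A z k) = ∫⁻ _ in polK A z k, (k : ENNReal) := by
        rw [setLIntegral_const]
    _ = ∫⁻ y in polK A z k,
          ∑ i, ({y : Fin m → ℝ | y i < 0}).indicator (1 : (Fin m → ℝ) → ENNReal) y :=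
        (setLIntegral_congr_fun hP h2).symm
    _ = ∑ i, ∫⁻ y in polK A z k, ({y : Fin m → ℝ | y i < 0}).indicator 1 y :=
        lintegral_finsetSum _ fun i _ => measurable_one.indicator (hS i)
    _ = ∑ i, volume (polK A z k ∩ {y | y i < 0}) :=
        Finset.sum_congr rfl fun i _ => (h1 i).symm

theorem polK_sum_le {m : ℕ} (A : Set (Fin m → ℝ)) (z : Fin m → ℝ) :
    ∑ k ∈ Finset.range (m + 1), volume (polK A z k) ≤ volume (polZ A z) := by
  have hd : Set.PairwiseDisjoint (↑(Finset.range (m + 1))) (fun k => polK A z k) := by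
    intro k _ k' _ hne
    refine Set.disjoint_left.mpr fun y hy hy' => hne ?_
    have e1 : negCount y = k := hy.2
    have e2 : negCount y = k' := hy'.2
    exact e1.symm.trans e2
  rw [← measure_biUnion_finset hd fun k _ => measurableSet_polK A z k]
  refine measure_mono ?_
  intro y hy
  simp only [Set.mem_iUnion] at hy
  obtain ⟨k, _, hk⟩ := hy
  exact hk.1

end Vale.Agent.Lib.P248.H40
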